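import Vale.Agent.P022D.NR.Tan

namespace Vale.Agent.P022E.NR
export Vale.Agent.P022D.NR (
  gas Der fin_of_rank tan)
end Vale.Agent.P022E.NR

namespace Vale.Agent.P022E.NR.Der
export Vale.Agent.P022D.NR.Der (
  cst add mul mk kil)
end Vale.Agent.P022E.NR.Der
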