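import Vale.Agent.P022D.NR.Ev
import Vale.Agent.P022E.NR.Tan

namespace Vale.Agent.P022E.NR
export Vale.Agent.P022D.NR (
  exists_surj ev_surj exists_ev exists_poly haus_of_le lift_surj ev_ext map_IX IX mem_IX)
end Vale.Agent.P022E.NR
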