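import Vale.Agent.P022D.NR.Core

namespace Vale.Agent.P022E.NR
export Vale.Agent.P022D.NR (
  TQ_pol T0_sq con TQ_mk T0 io T0_of T0_pol corner core TQ TQ_io io_eq T0_comm io_sq TQ_one
  TQ_comm)
end Vale.Agent.P022E.NR
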