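import Vale.Agent.P022D.NR.Main
import Vale.Agent.P022E.NR.Core

namespace Vale.Agent.P022E.NR
export Vale.Agent.P022D.NR (
  congr_of_trace e01 exists_roots T0_mul_of det_of_sq nr sub_mem_of_sum uniq e00 e11
  entry_mem)
end Vale.Agent.P022E.NR
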